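import Mathlib

/-! A building block of area `71 / 240` in the two-dimensional torus. -/

namespace Vale.Agent.P057

open Finset

/-- the position of a residue on the circle -/
noncomputable def ee {p : ℕ} (x : ZMod p) : ℝ := (x.val : ℝ) / p

theorem ee_nonneg {p : ℕ} (x : ZMod p) : 0 ≤ ee x := by
  unfold ee
  positivity

theorem ee_lt_one {p : ℕ} [NeZero p] (x : ZMod p) : ee x < 1 := by
  unfold ee
  have hp : (0 : ℝ) < p := by exact_mod_cast Nat.pos_of_ne_zero (NeZero.ne p)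
  rw [div_lt_one hp]
  exact_mod_cast ZMod.val_lt x

theorem ee_add {p : ℕ} [NeZero p] (x y : ZMod p) : ∃ k : ℤ, ee (x + y) = ee x + ee y + k := by
  have hp : (0 : ℝ) < p := by exact_mod_cast Nat.pos_of_ne_zero (NeZero.ne p)
  refine ⟨-((x.val + y.val) / p : ℕ), ?_⟩
  unfold ee
  rw [ZMod.val_add]
  have h := Nat.mod_add_div (x.val + y.val) p
  have h2 : (((x.val + y.val) % p : ℕ) : ℝ) + p * (((x.val + y.val) / p : ℕ) : ℝ) = x.val + y.val := by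
    exact_mod_cast h
  rw [Int.cast_neg, Int.cast_natCast]
  field_simp
  linarith

theorem ee_sub {p : ℕ} [NeZero p] (x y : ZMod p) : ∃ k : ℤ, ee (x - y) = ee x - ee y + k := by
  obtain ⟨k, hk⟩ := ee_add (x - y) y
  rw [sub_add_cancel] at hk
  exact ⟨-k, by push_cast; linarith⟩

theorem ee_ap {p : ℕ} [NeZero p] {x y z : ZMod p} (h : x + z = y + y) :
    ∃ k : ℤ, ee x + ee z = 2 * ee y + k := by
  obtain ⟨k, hk⟩ := ee_add x z
  obtain ⟨l, hl⟩ := ee_add y y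
  rw [h, hl] at hk
  exact ⟨l - k, by push_cast; linarith⟩

/-- the lower part of the block -/
def InL (γ r a : ℝ) : Prop := r < 1 / 2 - γ ∧ |a| < 1 / 4 ∧ |a| < 1 / 20 + 3 * r / 5

/-- the upper part of the block -/
def InU (r b : ℝ) : Prop :=
  1 / 2 ≤ r ∧ |b| < 1 / 4 ∧ |b| < 1 / 5 + 6 * (r - 1 / 2) / 5 ∧ |b| < 2 / 5 - 6 * (r - 1 / 2) / 5

/-- the convex weight -/
noncomputable def wt (γ r a b : ℝ) : ℝ := r ^ 2 / γ ^ 2 + if r < 1 / 2 then a ^ 2 else b ^ 2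

theorem int_eq_zero {j : ℤ} (h1 : (-1 : ℝ) < j) (h2 : (j : ℝ) < 1) : j = 0 := by
  have a1 : (-1 : ℤ) < j := by exact_mod_cast h1
  have a2 : j < 1 := by exact_mod_cast h2
  omega

theorem no_half {j : ℤ} (h1 : (-1 : ℝ) < j) (h2 : (j : ℝ) < 0) : False := by
  have a1 : (-1 : ℤ) < j := by exact_mod_cast h1
  have a2 : j < 0 := by exact_mod_cast h2
  omega

theorem sq_le_16 {a : ℝ} (h : |a| < 1 / 4) : a ^ 2 ≤ 1 / 16 := by
  have := abs_lt.mp h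
  nlinarith

theorem wt_bounds {γ r a b : ℝ} (h : InL γ r a ∨ InU r b) (hγ : 0 < γ) :
    r ^ 2 / γ ^ 2 ≤ wt γ r a b ∧ wt γ r a b ≤ r ^ 2 / γ ^ 2 + 1 / 16 := by
  unfold wt
  rcases h with h | h
  · rw [if_pos (by linarith [h.1])]
    exact ⟨by nlinarith [sq_nonneg a], by linarith [sq_le_16 h.2.1]⟩
  · rw [if_neg (by linarith [h.1])]
    exact ⟨by nlinarith [sq_nonneg b], by linarith [sq_le_16 h.2.1]⟩

theorem abs_le_of_sq {x η : ℝ} (hη : 0 < η) (h : x ^ 2 ≤ η ^ 2) : |x| ≤ η :=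
  abs_le_of_sq_le_sq' h hη.le |> abs_le.mpr

theorem core_LU {rx ry rz ax az ay by' bz : ℝ} {ky kz n : ℤ}
    (ey : by' = 2 * ay + 1 / 2 + ky) (ez : bz = 2 * az + 1 / 2 + kz)
    (hm : rx + rz = 2 * ry - 1) (hn : ax + az = 2 * ay + n)
    (hx : |ax| < 1 / 20 + 3 * rx / 5) (hz : |bz| < 1 / 5 + 6 * (rz - 1 / 2) / 5)
    (hy : |by'| < 2 / 5 - 6 * (ry - 1 / 2) / 5) : False := by
  have x5 := abs_lt.mp hx
  have y5 := abs_lt.mp hy
  have z5 := abs_lt.mp hz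
  refine no_half (j := 2 * n + kz - 2 * ky - 1) ?_ ?_ <;> push_cast <;>
    linarith [x5.1, x5.2, z5.1, z5.2, y5.1, y5.2]

theorem core_neg {γ rx ry rz ax ay az bx by' bz : ℝ} {kx ky kz n : ℤ} (hγ : 0 < γ)
    (hx0 : 0 ≤ rx) (hz0 : 0 ≤ rz) (hy1 : ry < 1)
    (ex : bx = 2 * ax + 1 / 2 + kx) (ey : by' = 2 * ay + 1 / 2 + ky) (ez : bz = 2 * az + 1 / 2 + kz)
    (hm : rx + rz = 2 * ry - 1) (hn : ax + az = 2 * ay + n)
    (hx : InL γ rx ax ∨ InU rx bx) (hy : InL γ ry ay ∨ InU ry by') (hz : InL γ rz az ∨ InU rz bz) :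
    False := by
  rcases hy with hy | hy
  · linarith [hy.1]
  rcases hx with hx | hx <;> rcases hz with hz | hz
  · have x5 := abs_lt.mp hx.2.2
    have y5 := abs_lt.mp hy.2.2.2
    have z5 := abs_lt.mp hz.2.2
    refine no_half (j := n - ky - 1) ?_ ?_ <;> push_cast <;>
      linarith [x5.1, x5.2, z5.1, z5.2, y5.1, y5.2]
  · exact core_LU ey ez hm hn hx.2.2 hz.2.2.1 hy.2.2.2
  · exact core_LU ey ex (by linarith) (by linarith : az + ax = 2 * ay + n) hz.2.2 hx.2.2.1 hy.2.2.2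
  · linarith [hx.1, hz.1]

theorem mid_of_small {x y z : ℝ} {n : ℤ} (h : x + z = 2 * y + n) (hx : |x| < 1 / 4)
    (hy : |y| < 1 / 4) (hz : |z| < 1 / 4) : x ^ 2 + z ^ 2 - 2 * y ^ 2 = (z - x) ^ 2 / 2 := by
  have x5 := abs_lt.mp hx
  have y5 := abs_lt.mp hy
  have z5 := abs_lt.mp hz
  have h0 : n = 0 := int_eq_zero (by linarith [x5.1, z5.1, y5.2]) (by linarith [x5.2, z5.2, y5.1])
  rw [h0] at h
  push_cast at h
  rw [show y = (x + z) / 2 by linarith]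
  ring

theorem core_key {γ rx ry rz wx wy wz : ℝ} (hγ : 0 < γ) (bx : rx ^ 2 / γ ^ 2 ≤ wx)
    (bz : rz ^ 2 / γ ^ 2 ≤ wz) (by' : wy ≤ ry ^ 2 / γ ^ 2 + 1 / 16)
    (h : γ ^ 2 / 4 ≤ rx ^ 2 + rz ^ 2 - 2 * ry ^ 2) : 1 / 8 ≤ wx + wz - 2 * wy := by
  have hγ2 : 0 < γ ^ 2 := by positivity
  have h3 : 1 / 4 ≤ rx ^ 2 / γ ^ 2 + rz ^ 2 / γ ^ 2 - 2 * (ry ^ 2 / γ ^ 2) := by
    rw [show rx ^ 2 / γ ^ 2 + rz ^ 2 / γ ^ 2 - 2 * (ry ^ 2 / γ ^ 2) =
      (rx ^ 2 + rz ^ 2 - 2 * ry ^ 2) / γ ^ 2 by ring, le_div_iff₀ hγ2]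
    linarith
  linarith

theorem core_gap {γ u : ℝ} (hγ : 0 < γ) (h : γ ≤ u ∨ u ≤ -γ) : γ ^ 2 / 4 ≤ u ^ 2 / 2 := by
  rcases h with h | h <;> nlinarith

theorem core_div {γ u : ℝ} (hγ : 0 < γ) (hγ1 : γ ≤ 1) (h : 0 ≤ u) : u ≤ u / γ ^ 2 := by
  have hγ2 : 0 < γ ^ 2 := by positivity
  have hγ3 : γ ^ 2 ≤ 1 := by nlinarith
  rw [le_div_iff₀ hγ2]
  nlinarith

theorem core {γ rx ry rz ax ay az bx by' bz : ℝ} {kx ky kz m n : ℤ} (hγ : 0 < γ) (hγ1 : γ ≤ 1)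
    (hx0 : 0 ≤ rx) (hy0 : 0 ≤ ry) (hz0 : 0 ≤ rz) (hx1 : rx < 1) (hy1 : ry < 1) (hz1 : rz < 1)
    (ex : bx = 2 * ax + 1 / 2 + kx) (ey : by' = 2 * ay + 1 / 2 + ky) (ez : bz = 2 * az + 1 / 2 + kz)
    (hm : rx + rz = 2 * ry + m) (hn : ax + az = 2 * ay + n)
    (hx : InL γ rx ax ∨ InU rx bx) (hy : InL γ ry ay ∨ InU ry by') (hz : InL γ rz az ∨ InU rz bz) :
    1 / 8 ≤ wt γ rx ax bx + wt γ rz az bz - 2 * wt γ ry ay by' ∨
    ∃ j : ℤ, (rz - rx) ^ 2 / 2 + (bz - bx - j) ^ 2 / 8 ≤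
      wt γ rx ax bx + wt γ rz az bz - 2 * wt γ ry ay by' := by
  have hm1 : (-2 : ℤ) < m := by
    have : (-2 : ℝ) < m := by linarith
    exact_mod_cast this
  have hm2 : m < 2 := by
    have : (m : ℝ) < 2 := by linarith
    exact_mod_cast this
  have key := fun h => core_key hγ (wt_bounds hx hγ).1 (wt_bounds hz hγ).1 (wt_bounds hy hγ).2 h
  obtain rfl | rfl | rfl : m = -1 ∨ m = 0 ∨ m = 1 := by omega
  · push_cast at hm
    exact (core_neg hγ hx0 hz0 hy1 ex ey ez (by linarith) hn hx hy hz).elim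
  · push_cast at hm
    have e0 : rx ^ 2 + rz ^ 2 - 2 * ry ^ 2 = (rz - rx) ^ 2 / 2 := by
      rw [show ry = (rx + rz) / 2 by linarith]
      ring
    have e1 : (rz - rx) ^ 2 / 2 ≤ rx ^ 2 / γ ^ 2 + rz ^ 2 / γ ^ 2 - 2 * (ry ^ 2 / γ ^ 2) := by
      rw [show rx ^ 2 / γ ^ 2 + rz ^ 2 / γ ^ 2 - 2 * (ry ^ 2 / γ ^ 2) =
        (rx ^ 2 + rz ^ 2 - 2 * ry ^ 2) / γ ^ 2 by ring, e0]
      exact core_div hγ hγ1 (by positivity)
    rw [e0] at key
    rcases hx with hx | hx <;> rcases hz with hz | hz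
    · right
      rcases hy with hy | hy
      · have h0 := mid_of_small hn hx.2.1 hy.2.1 hz.2.1
        refine ⟨kz - kx, ?_⟩
        unfold wt
        rw [if_pos (by linarith only [hx.1, hγ]), if_pos (by linarith only [hz.1, hγ]),
          if_pos (by linarith only [hy.1, hγ])]
        have e2 : (bz - bx - ((kz - kx : ℤ) : ℝ)) ^ 2 / 8 = (az - ax) ^ 2 / 2 := by
          rw [ex, ez]
          push_cast
          ring
        linarith only [e1, e2, h0]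
      · linarith only [hx.1, hz.1, hy.1, hm, hγ]
    · exact Or.inl (key (core_gap hγ (Or.inl (by linarith only [hx.1, hz.1]))))
    · exact Or.inl (key (core_gap hγ (Or.inr (by linarith only [hx.1, hz.1]))))
    · right
      rcases hy with hy | hy
      · linarith only [hx.1, hz.1, hy.1, hm, hγ]
      · have h0 := mid_of_small (n := 2 * n + kx + kz - 2 * ky)
          (by push_cast; linarith only [ex, ey, ez, hn]) hx.2.1 hy.2.1 hz.2.1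
        refine ⟨0, ?_⟩
        unfold wt
        rw [if_neg (by linarith only [hx.1]), if_neg (by linarith only [hz.1]),
          if_neg (by linarith only [hy.1])]
        have e3 := sq_nonneg (bz - bx)
        rw [Int.cast_zero, sub_zero]
        linarith only [e1, h0, e3]
  · left
    push_cast at hm
    refine key ?_
    have h1 : γ ^ 2 ≤ 1 := by nlinarith only [hγ, hγ1]
    have h2 : rx ^ 2 + rz ^ 2 - 2 * ry ^ 2 = (rx - rz) ^ 2 / 2 + 2 * ry + 1 / 2 := by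
      rw [show ry = (rx + rz - 1) / 2 by linarith only [hm]]
      ring
    linarith only [h1, h2, hy0, sq_nonneg (rx - rz)]

/-- the points of the block -/
def InT {p : ℕ} (γ : ℝ) (x : ZMod p × ZMod p) : Prop :=
  InL γ (ee x.1) (ee x.2 - 1 / 2) ∨ InU (ee x.1) (ee (x.2 + x.2) - 1 / 2)

/-- the weight of a point -/
noncomputable def ff {p : ℕ} (γ : ℝ) (x : ZMod p × ZMod p) : ℝ :=
  wt γ (ee x.1) (ee x.2 - 1 / 2) (ee (x.2 + x.2) - 1 / 2)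

/-- residues near zero -/
def Near {p : ℕ} (η : ℝ) (s : ZMod p) : Prop := ∃ k : ℤ, |ee s - k| ≤ η

theorem ff_bounds {p : ℕ} [NeZero p] {γ : ℝ} (hγ : 0 < γ) {x : ZMod p × ZMod p} (h : InT γ x) :
    0 ≤ ff γ x ∧ ff γ x ≤ 1 / γ ^ 2 + 1 := by
  have h1 := wt_bounds h hγ
  have h2 := ee_nonneg x.1
  have h3 := ee_lt_one x.1
  have h4 : ee x.1 ^ 2 / γ ^ 2 ≤ 1 / γ ^ 2 := by
    gcongr
    nlinarith
  exact ⟨le_trans (by positivity) h1.1, by unfold ff; linarith [h1.2]⟩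

theorem block {p : ℕ} [NeZero p] {γ : ℝ} (hγ : 0 < γ) (hγ1 : γ ≤ 1) {x y z : ZMod p × ZMod p}
    (h : x + z = y + y) (hx : InT γ x) (hy : InT γ y) (hz : InT γ z) :
    0 ≤ ff γ x + ff γ z - 2 * ff γ y ∧ ∀ η : ℝ, 0 < η → η ≤ 1 →
      ff γ x + ff γ z - 2 * ff γ y < η ^ 2 / 8 →
      Near η ((z - x).1 + (z - x).1) ∧ Near η ((z - x).2 + (z - x).2) := by
  obtain ⟨m, hm⟩ := ee_ap (congrArg Prod.fst h : x.1 + z.1 = y.1 + y.1)
  obtain ⟨n, hn⟩ := ee_ap (congrArg Prod.snd h : x.2 + z.2 = y.2 + y.2)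
  obtain ⟨kx, ex⟩ := ee_add x.2 x.2
  obtain ⟨ky, ey⟩ := ee_add y.2 y.2
  obtain ⟨kz, ez⟩ := ee_add z.2 z.2
  have hc := core (kx := kx) (ky := ky) (kz := kz) (m := m) (n := n) hγ hγ1 (ee_nonneg _)
    (ee_nonneg _) (ee_nonneg _) (ee_lt_one _) (ee_lt_one _) (ee_lt_one _) (by linarith)
    (by linarith) (by linarith) hm (by linarith) hx hy hz
  change 1 / 8 ≤ ff γ x + ff γ z - 2 * ff γ y ∨ ∃ j : ℤ, _ ≤ ff γ x + ff γ z - 2 * ff γ y at hc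
  rcases hc with hc | ⟨j, hc⟩
  · exact ⟨by linarith, fun η h0 h1 h2 => by nlinarith⟩
  refine ⟨le_trans (by positivity) hc, fun η h0 h1 h2 => ⟨?_, ?_⟩⟩
  · obtain ⟨k, hk⟩ := ee_sub z.1 x.1
    obtain ⟨l, hl⟩ := ee_add (z - x).1 (z - x).1
    refine ⟨l + 2 * k, abs_le_of_sq h0 ?_⟩
    rw [hl, Prod.fst_sub, hk]
    push_cast
    nlinarith [sq_nonneg (ee (z.2 + z.2) - 1 / 2 - (ee (x.2 + x.2) - 1 / 2) - j)]
  · obtain ⟨k, hk⟩ := ee_sub (z.2 + z.2) (x.2 + x.2)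
    refine ⟨k + j, abs_le_of_sq h0 ?_⟩
    rw [show (z - x).2 + (z - x).2 = z.2 + z.2 - (x.2 + x.2) by rw [Prod.snd_sub]; ring, hk]
    push_cast
    nlinarith [sq_nonneg (ee z.1 - ee x.1)]

end Vale.Agent.P057
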