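import Vale.Agent.P057.Block

/-! The size of the block. -/

namespace Vale.Agent.P057

open Finset Classical

theorem card_band (p : ℕ) [NeZero p] {κ : ℝ} (h0 : 0 ≤ κ) (h1 : κ ≤ 1 / 2) :
    2 * κ * p - 1 ≤ ((univ.filter fun v : ZMod p => |ee v - 1 / 2| < κ).card : ℝ) := by
  have hp : (0 : ℝ) < p := by exact_mod_cast Nat.pos_of_ne_zero (NeZero.ne p)
  have hlo : 0 ≤ (1 / 2 - κ) * p := by nlinarith
  have key : ∀ n ∈ Ioo ⌊(1 / 2 - κ) * p⌋₊ ⌈(1 / 2 + κ) * p⌉₊,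
      (1 / 2 - κ) * p < n ∧ (n : ℝ) < (1 / 2 + κ) * p ∧ n < p := by
    intro n hn
    rw [mem_Ioo] at hn
    have a1 := (Nat.floor_lt hlo).mp hn.1
    have a2 := Nat.lt_ceil.mp hn.2
    refine ⟨a1, a2, ?_⟩
    have : (n : ℝ) < p := by nlinarith
    exact_mod_cast this
  have hc : (Ioo ⌊(1 / 2 - κ) * p⌋₊ ⌈(1 / 2 + κ) * p⌉₊).card ≤
      (univ.filter fun v : ZMod p => |ee v - 1 / 2| < κ).card := by
    refine card_le_card_of_injOn (fun n => (n : ZMod p)) (fun n hn => ?_) (fun n hn m hm h => ?_)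
    · obtain ⟨a1, a2, a3⟩ := key n hn
      refine mem_coe.mpr (mem_filter.mpr ⟨mem_univ _, ?_⟩)
      unfold ee
      rw [ZMod.val_cast_of_lt a3, abs_lt]
      constructor
      · have : (1 / 2 - κ) < n / p := by rw [lt_div_iff₀ hp]; exact a1
        linarith
      · have : (n : ℝ) / p < 1 / 2 + κ := by rw [div_lt_iff₀ hp]; exact a2
        linarith
    · have := congrArg ZMod.val h
      rwa [ZMod.val_cast_of_lt (key n hn).2.2, ZMod.val_cast_of_lt (key m hm).2.2] at this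
  rw [Nat.card_Ioo] at hc
  have a1 := Nat.floor_le hlo
  have a2 := Nat.le_ceil ((1 / 2 + κ) * p)
  have a3 : ⌈(1 / 2 + κ) * p⌉₊ ≤ (univ.filter fun v : ZMod p => |ee v - 1 / 2| < κ).card +
      ⌊(1 / 2 - κ) * p⌋₊ + 1 := by omega
  have a4 : (⌈(1 / 2 + κ) * p⌉₊ : ℝ) ≤ (univ.filter fun v : ZMod p => |ee v - 1 / 2| < κ).card +
      ⌊(1 / 2 - κ) * p⌋₊ + 1 := by exact_mod_cast a3
  linarith

theorem card_band2 (p : ℕ) [Fact p.Prime] (hp2 : 2 < p) {κ : ℝ} (h0 : 0 ≤ κ) (h1 : κ ≤ 1 / 2) :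
    2 * κ * p - 1 ≤ ((univ.filter fun v : ZMod p => |ee (v + v) - 1 / 2| < κ).card : ℝ) := by
  refine (card_band p h0 h1).trans (Nat.cast_le.mpr ?_)
  have h2 : (2 : ZMod p) ≠ 0 := by
    intro h
    have := (ZMod.natCast_eq_zero_iff 2 p).mp (by exact_mod_cast h)
    exact absurd (Nat.le_of_dvd two_pos this) (by omega)
  refine card_le_card_of_injOn (fun w => w / 2) (fun w hw => ?_) (fun w _ v _ h => ?_)
  · refine mem_coe.mpr (mem_filter.mpr ⟨mem_univ _, ?_⟩)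
    rw [show w / 2 + w / 2 = w by field_simp; ring]
    exact (mem_filter.mp (mem_coe.mp hw)).2
  · exact (div_left_inj' h2).mp h

theorem card_near (p : ℕ) [NeZero p] {η : ℝ} (h0 : 0 ≤ η) :
    ((univ.filter fun s : ZMod p => Near η s).card : ℝ) ≤ 2 * η * p + 1 := by
  have hp : (0 : ℝ) < p := by exact_mod_cast Nat.pos_of_ne_zero (NeZero.ne p)
  have hs : (univ.filter fun s : ZMod p => Near η s) ⊆
      (Icc (-(⌊η * p⌋₊ : ℤ)) ⌊η * p⌋₊).image fun t : ℤ => (t : ZMod p) := by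
    intro s hs
    obtain ⟨k, hk⟩ := (mem_filter.mp hs).2
    refine mem_image.mpr ⟨s.val - k * p, ?_, by simp⟩
    have h1 : |((s.val - k * p : ℤ) : ℝ)| ≤ η * p := by
      have e : ((s.val - k * p : ℤ) : ℝ) = (ee s - k) * p := by
        unfold ee
        push_cast
        field_simp
      rw [e, abs_mul, abs_of_pos hp]
      gcongr
    have h2 : (s.val - k * p : ℤ).natAbs ≤ ⌊η * p⌋₊ := by
      refine Nat.le_floor ?_
      rw [Nat.cast_natAbs, Int.cast_abs]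
      exact h1
    rw [mem_Icc]
    omega
  have h3 := (card_le_card hs).trans card_image_le
  rw [Int.card_Icc] at h3
  have h4 : (univ.filter fun s : ZMod p => Near η s).card ≤ 2 * ⌊η * p⌋₊ + 1 := by omega
  have h5 : ((univ.filter fun s : ZMod p => Near η s).card : ℝ) ≤ 2 * ⌊η * p⌋₊ + 1 := by
    exact_mod_cast h4
  have h6 := Nat.floor_le (show 0 ≤ η * p by positivity)
  linarith

theorem sum_val (p : ℕ) [NeZero p] (g : ℕ → ℝ) : ∑ u : ZMod p, g u.val = ∑ n ∈ range p, g n := by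
  refine sum_bij (fun u _ => u.val) (fun u _ => mem_range.mpr (ZMod.val_lt u))
    (fun u _ v _ h => ZMod.val_injective p h) (fun n hn => ⟨n, mem_univ _, ?_⟩) fun _ _ => rfl
  exact ZMod.val_cast_of_lt (mem_range.mp hn)

theorem sum_affine (α β : ℝ) (B : ℕ) :
    ∑ n ∈ range B, (α + β * n) = α * B + β * (B * (B - 1)) / 2 := by
  induction B with
  | zero => simp
  | succ k ih =>
    rw [sum_range_succ, ih]
    push_cast
    ring

theorem ceil_sq {p x A : ℝ} (hp : 1 ≤ p) (h0 : 0 ≤ x) (h1 : x ≤ p) (h2 : x ≤ A) (h3 : A < x + 1) :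
    |A * (A - 1) - x ^ 2| ≤ 2 * p := by
  rw [abs_le]
  constructor <;> nlinarith

theorem sum_level (p : ℕ) [NeZero p] {s t : ℝ} (α β : ℝ) (hs : 0 ≤ s) (hst : s ≤ t) (ht : t ≤ 1) :
    p * (α * (t - s) + β * (t ^ 2 - s ^ 2) / 2) - (|α| + 2 * |β|) ≤
      ∑ u : ZMod p, if s ≤ ee u ∧ ee u < t then α + β * ee u else 0 := by
  have hp1 : (1 : ℝ) ≤ p := by exact_mod_cast Nat.pos_of_ne_zero (NeZero.ne p)
  have hp : (0 : ℝ) < p := by linarith
  have e1 := sum_val p fun n => if s ≤ (n : ℝ) / p ∧ (n : ℝ) / p < t then α + β * (n / p) else 0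
  unfold ee
  rw [e1, ← sum_filter]
  have hB : ⌈t * p⌉₊ ≤ p := Nat.ceil_le.mpr (by nlinarith)
  have hAB : ⌈s * p⌉₊ ≤ ⌈t * p⌉₊ := Nat.ceil_mono (by nlinarith)
  have e2 : (range p).filter (fun n : ℕ => s ≤ (n : ℝ) / p ∧ (n : ℝ) / p < t) =
      Ico ⌈s * p⌉₊ ⌈t * p⌉₊ := by
    ext n
    rw [mem_filter, mem_Ico, mem_range, le_div_iff₀ hp, div_lt_iff₀ hp, Nat.ceil_le, ← Nat.lt_ceil]
    exact ⟨fun h => h.2, fun h => ⟨by omega, h⟩⟩
  have e3 : ∀ n : ℕ, α + β * ((n : ℝ) / p) = α + β / p * n := fun n => by ring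
  simp only [e2, e3]
  rw [sum_Ico_eq_sub _ hAB, sum_affine, sum_affine]
  have a1 := Nat.le_ceil (s * p)
  have a2 := Nat.ceil_lt_add_one (show 0 ≤ s * p by positivity)
  have b1 := Nat.le_ceil (t * p)
  have b2 := Nat.ceil_lt_add_one (show 0 ≤ t * p by nlinarith)
  have a3 := ceil_sq hp1 (by positivity) (by nlinarith) a1 a2
  have b3 := ceil_sq hp1 (by nlinarith) (by nlinarith) b1 b2
  generalize (⌈s * p⌉₊ : ℝ) = A at *
  generalize (⌈t * p⌉₊ : ℝ) = B at *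
  have c1 : |α * ((B - t * p) - (A - s * p))| ≤ |α| := by
    rw [abs_mul]
    refine mul_le_of_le_one_right (abs_nonneg _) (abs_le.mpr ⟨by linarith, by linarith⟩)
  have c2 : |β / p * ((B * (B - 1) - (t * p) ^ 2) - (A * (A - 1) - (s * p) ^ 2)) / 2| ≤ 2 * |β| := by
    rw [abs_div, abs_mul, abs_div, abs_of_pos hp, abs_two, div_le_iff₀ two_pos, div_mul_eq_mul_div,
      div_le_iff₀ hp]
    have c3 := abs_sub (B * (B - 1) - (t * p) ^ 2) (A * (A - 1) - (s * p) ^ 2)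
    nlinarith [abs_nonneg β]
  have c4 : α * B + β / p * (B * (B - 1)) / 2 - (α * A + β / p * (A * (A - 1)) / 2) =
      p * (α * (t - s) + β * (t ^ 2 - s ^ 2) / 2) + α * ((B - t * p) - (A - s * p)) +
        β / p * ((B * (B - 1) - (t * p) ^ 2) - (A * (A - 1) - (s * p) ^ 2)) / 2 := by
    field_simp
    ring
  rw [c4]
  linarith [neg_abs_le (α * ((B - t * p) - (A - s * p))),
    neg_abs_le (β / p * ((B * (B - 1) - (t * p) ^ 2) - (A * (A - 1) - (s * p) ^ 2)) / 2)]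

/-- the width of the block at height `r` -/
noncomputable def wid (γ r : ℝ) : ℝ :=
  (if 0 ≤ r ∧ r < 1 / 3 then 1 / 10 + 6 / 5 * r else 0) +
  (if 1 / 3 ≤ r ∧ r < 1 / 2 - γ then 1 / 2 + 0 * r else 0) +
  (if 1 / 2 ≤ r ∧ r < 13 / 24 then -4 / 5 + 12 / 5 * r else 0) +
  (if 13 / 24 ≤ r ∧ r < 5 / 8 then 1 / 2 + 0 * r else 0) +
  (if 5 / 8 ≤ r ∧ r < 5 / 6 then 2 + -12 / 5 * r else 0)

theorem card_fiber (p : ℕ) [Fact p.Prime] (hp2 : 2 < p) {γ : ℝ} (hγ : 0 < γ) (hγ1 : γ ≤ 1 / 6)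
    (u : ZMod p) :
    wid γ (ee u) * p - 1 ≤ ((univ.filter fun v : ZMod p => InT γ (u, v)).card : ℝ) := by
  have h0 := ee_nonneg u
  have L : ∀ κ : ℝ, 0 ≤ κ → κ ≤ 1 / 4 → κ ≤ 1 / 20 + 3 * ee u / 5 → ee u < 1 / 2 - γ →
      2 * κ * p - 1 ≤ ((univ.filter fun v : ZMod p => InT γ (u, v)).card : ℝ) := by
    intro κ k0 k1 k2 k3
    refine (card_band p k0 (by linarith)).trans (Nat.cast_le.mpr (card_le_card fun v hv => ?_))
    have hv := (mem_filter.mp hv).2
    exact mem_filter.mpr ⟨mem_univ _, Or.inl ⟨k3, hv.trans_le k1, hv.trans_le k2⟩⟩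
  have U : ∀ κ : ℝ, 0 ≤ κ → κ ≤ 1 / 4 → κ ≤ 1 / 5 + 6 * (ee u - 1 / 2) / 5 →
      κ ≤ 2 / 5 - 6 * (ee u - 1 / 2) / 5 → 1 / 2 ≤ ee u →
      2 * κ * p - 1 ≤ ((univ.filter fun v : ZMod p => InT γ (u, v)).card : ℝ) := by
    intro κ k0 k1 k2 k3 k4
    refine (card_band2 p hp2 k0 (by linarith)).trans (Nat.cast_le.mpr (card_le_card fun v hv => ?_))
    have hv := (mem_filter.mp hv).2
    exact mem_filter.mpr ⟨mem_univ _, Or.inr ⟨k4, hv.trans_le k1, hv.trans_le k2, hv.trans_le k3⟩⟩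
  unfold wid
  generalize ee u = r at *
  by_cases c1 : r < 1 / 3
  · rw [if_pos ⟨h0, c1⟩, if_neg (fun h => by linarith [h.1]), if_neg (fun h => by linarith [h.1]),
      if_neg (fun h => by linarith [h.1]), if_neg (fun h => by linarith [h.1])]
    have := L (1 / 20 + 3 * r / 5) (by linarith) (by linarith) le_rfl (by linarith)
    linarith
  rw [if_neg (fun h => c1 h.2)]
  by_cases c2 : r < 1 / 2 - γ
  · rw [if_pos ⟨by linarith, c2⟩, if_neg (fun h => by linarith [h.1]),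
      if_neg (fun h => by linarith [h.1]), if_neg (fun h => by linarith [h.1])]
    have := L (1 / 4) (by linarith) le_rfl (by linarith) c2
    linarith
  rw [if_neg (fun h => c2 h.2)]
  by_cases c3 : r < 1 / 2
  · rw [if_neg (fun h => by linarith [h.1]),
      if_neg (fun h => by linarith [h.1]), if_neg (fun h => by linarith [h.1])]
    have : (0 : ℝ) ≤ (univ.filter fun v : ZMod p => InT γ (u, v)).card := Nat.cast_nonneg _
    linarith
  by_cases c4 : r < 13 / 24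
  · rw [if_pos ⟨by linarith, c4⟩, if_neg (fun h => by linarith [h.1]),
      if_neg (fun h => by linarith [h.1])]
    have := U (1 / 5 + 6 * (r - 1 / 2) / 5) (by linarith) (by linarith) le_rfl (by linarith)
      (by linarith)
    linarith
  rw [if_neg (fun h => c4 h.2)]
  by_cases c5 : r < 5 / 8
  · rw [if_pos ⟨by linarith, c5⟩, if_neg (fun h => by linarith [h.1])]
    have := U (1 / 4) (by linarith) le_rfl (by linarith) (by linarith) (by linarith)
    linarith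
  rw [if_neg (fun h => c5 h.2)]
  by_cases c6 : r < 5 / 6
  · rw [if_pos ⟨by linarith, c6⟩]
    have := U (2 / 5 - 6 * (r - 1 / 2) / 5) (by linarith) (by linarith) (by linarith) le_rfl
      (by linarith)
    linarith
  · rw [if_neg (fun h => c6 h.2)]
    have : (0 : ℝ) ≤ (univ.filter fun v : ZMod p => InT γ (u, v)).card := Nat.cast_nonneg _
    linarith

theorem card_block (p : ℕ) [Fact p.Prime] (hp2 : 2 < p) {γ : ℝ} (hγ : 0 < γ) (hγ1 : γ ≤ 1 / 6)
    (hp : 34 ≤ γ * p) :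
    (71 / 240 - γ) * (p : ℝ) ^ 2 ≤ ((univ.filter fun x : ZMod p × ZMod p => InT γ x).card : ℝ) := by
  have hp0 : (0 : ℝ) < p := by exact_mod_cast (by omega : 0 < p)
  have e1 : ((univ.filter fun x : ZMod p × ZMod p => InT γ x).card : ℝ) =
      ∑ u : ZMod p, ((univ.filter fun v : ZMod p => InT γ (u, v)).card : ℝ) := by
    simp only [card_filter, Nat.cast_sum]
    rw [Fintype.sum_prod_type]
  have e2 := sum_le_sum fun u (_ : u ∈ univ) => card_fiber p hp2 hγ hγ1 u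
  rw [sum_sub_distrib, ← sum_mul, sum_const, card_univ, ZMod.card, nsmul_eq_mul, mul_one] at e2
  have s1 := sum_level p (s := 0) (t := 1 / 3) (1 / 10) (6 / 5) le_rfl (by norm_num) (by norm_num)
  have s2 := sum_level p (s := 1 / 3) (t := 1 / 2 - γ) (1 / 2) 0 (by norm_num) (by linarith)
    (by linarith)
  have s3 := sum_level p (s := 1 / 2) (t := 13 / 24) (-4 / 5) (12 / 5) (by norm_num) (by norm_num)
    (by norm_num)
  have s4 := sum_level p (s := 13 / 24) (t := 5 / 8) (1 / 2) 0 (by norm_num) (by norm_num)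
    (by norm_num)
  have s5 := sum_level p (s := 5 / 8) (t := 5 / 6) 2 (-12 / 5) (by norm_num) (by norm_num)
    (by norm_num)
  have e3 : (71 / 240 - γ / 2) * p - 16 ≤ ∑ u : ZMod p, wid γ (ee u) := by
    unfold wid
    simp only [sum_add_distrib]
    norm_num [abs_of_pos, abs_of_neg] at s1 s2 s3 s4 s5 ⊢
    linarith
  rw [e1]
  nlinarith

end Vale.Agent.P057
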