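import Vale.Agent.P057.Count

/-! From the block to a large subset of the integers without three-term progressions. -/

namespace Vale.Agent.P057

open Finset Classical

theorem exists_slice {X : Type*} (T : Finset X) (F : X → ℝ) {M w : ℝ} (hw : 0 < w) (hM : 0 ≤ M)
    (hF : ∀ x ∈ T, 0 ≤ F x ∧ F x ≤ M) :
    ∃ S ⊆ T, (∀ x ∈ S, ∀ y ∈ S, F x - F y < w) ∧ (T.card : ℝ) ≤ (M / w + 1) * S.card := by
  have hJ : (0 : ℝ) < (⌊M / w⌋₊ + 1 : ℕ) := by positivity
  obtain ⟨j, -, hj⟩ := exists_le_card_fiber_of_nsmul_le_card_of_maps_to (M := ℝ) (s := T)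
    (t := range (⌊M / w⌋₊ + 1)) (f := fun x => ⌊F x / w⌋₊) (b := T.card / (⌊M / w⌋₊ + 1 : ℕ))
    (fun x hx => mem_range.mpr (Nat.lt_succ_of_le (Nat.floor_le_floor
      (div_le_div_of_nonneg_right (hF x hx).2 hw.le)))) ⟨0, by simp⟩
    (by rw [card_range, nsmul_eq_mul, mul_div_cancel₀ _ hJ.ne'])
  refine ⟨_, filter_subset (fun x => ⌊F x / w⌋₊ = j) T, fun x hx y hy => ?_, ?_⟩
  · obtain ⟨hx1, hx2⟩ := mem_filter.mp hx
    obtain ⟨hy1, hy2⟩ := mem_filter.mp hy
    have a1 := Nat.lt_floor_add_one (F x / w)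
    have a2 := Nat.floor_le (div_nonneg (hF y hy1).1 hw.le)
    rw [hx2] at a1
    rw [hy2] at a2
    rw [div_lt_iff₀ hw] at a1
    rw [le_div_iff₀ hw] at a2
    linarith
  · rw [div_le_iff₀ hJ] at hj
    have a : ((⌊M / w⌋₊ + 1 : ℕ) : ℝ) ≤ M / w + 1 := by
      push_cast
      linarith [Nat.floor_le (div_nonneg hM hw.le)]
    calc (T.card : ℝ) ≤ _ := hj
      _ ≤ _ := by
        rw [mul_comm]
        gcongr

theorem exists_avoid {G ι : Type*} [Fintype G] (I : Finset ι) (φ : ι → G → G)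
    (hφ : ∀ i ∈ I, Function.Injective (φ i)) (B : Finset G)
    (h : I.card * B.card < Fintype.card G) : ∃ θ, ∀ i ∈ I, φ i θ ∉ B := by
  by_contra hc
  push Not at hc
  have h1 : (univ : Finset G) ⊆ I.biUnion fun i => univ.filter fun θ => φ i θ ∈ B := by
    intro θ _
    obtain ⟨i, hi, h⟩ := hc θ
    exact mem_biUnion.mpr ⟨i, hi, mem_filter.mpr ⟨mem_univ _, h⟩⟩
  have h2 := (card_le_card h1).trans card_biUnion_le
  have h3 : ∑ i ∈ I, (univ.filter fun θ => φ i θ ∈ B).card ≤ I.card * B.card := by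
    rw [← smul_eq_mul]
    refine sum_le_card_nsmul _ _ _ fun i hi => ?_
    exact card_le_card_of_injOn (φ i) (fun θ hθ => (mem_filter.mp (mem_coe.mp hθ)).2)
      (hφ i hi).injOn
  rw [card_univ] at h2
  omega

theorem exists_shift {G : Type*} [AddCommGroup G] [Fintype G] (I : Finset ℕ) (g : ℕ → G)
    (S : Finset G) : ∃ μ : G, I.card * S.card ≤
      Fintype.card G * (I.filter fun n => μ + g n ∈ S).card := by
  have h1 : ∀ n, (univ.filter fun μ : G => μ + g n ∈ S).card = S.card := by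
    intro n
    refine card_bij (fun μ _ => μ + g n) (fun μ hμ => (mem_filter.mp hμ).2)
      (fun a _ b _ h => add_right_cancel h) (fun s hs => ⟨s - g n, ?_, by simp⟩)
    simpa using hs
  have h2 : ∑ μ : G, (I.filter fun n => μ + g n ∈ S).card = I.card * S.card := by
    simp only [card_filter]
    rw [sum_comm]
    simp only [← card_filter, h1]
    simp
  obtain ⟨μ, -, hμ⟩ := exists_le_of_sum_le (s := (univ : Finset G)) univ_nonempty
    (f := fun _ => I.card * S.card)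
    (g := fun μ => Fintype.card G * (I.filter fun n => μ + g n ∈ S).card)
    (by rw [← mul_sum univ _ (Fintype.card G), h2]; simp)
  exact ⟨μ, hμ⟩

theorem finite_step (N d p : ℕ) [Fact p.Prime] (hp2 : 2 < p) (hpN : 4 * N < p) {γ η : ℝ}
    (hγ : 0 < γ) (hγ1 : γ ≤ 1 / 6) (hp : 34 ≤ γ * p) (hη : 0 < η) (hη1 : η ≤ 1)
    (hbad : (N : ℝ) * (2 * η * p + 1) ^ (2 * d) < (p : ℝ) ^ (2 * d)) :
    ∃ A ⊆ Icc 1 N, (∀ a h : ℕ, 0 < h → ¬ (a ∈ A ∧ a + h ∈ A ∧ a + 2 * h ∈ A)) ∧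
      N * (71 / 240 - γ) ^ d ≤ (d * (1 / γ ^ 2 + 1) / (η ^ 2 / 16) + 1) * A.card := by
  have hp0 : (0 : ℝ) < p := by exact_mod_cast (by omega : 0 < p)
  have hG : Fintype.card (Fin d → ZMod p × ZMod p) = p ^ (2 * d) := by
    simp [ZMod.card, pow_mul, sq]
  obtain ⟨S, hST, hS, hSc⟩ := exists_slice
    (Fintype.piFinset fun _ : Fin d => univ.filter fun x : ZMod p × ZMod p => InT γ x)
    (fun x => ∑ i, ff γ (x i)) (M := d * (1 / γ ^ 2 + 1)) (w := η ^ 2 / 16) (by positivity)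
    (by positivity) (fun x hx => by
      have h := fun i => ff_bounds hγ (mem_filter.mp (Fintype.mem_piFinset.mp hx i)).2
      refine ⟨sum_nonneg fun i _ => (h i).1, ?_⟩
      calc ∑ i, ff γ (x i) ≤ ∑ _i : Fin d, (1 / γ ^ 2 + 1) := sum_le_sum fun i _ => (h i).2
        _ = _ := by rw [sum_const, card_univ, Fintype.card_fin, nsmul_eq_mul])
  have hT : ((71 / 240 - γ) * (p : ℝ) ^ 2) ^ d ≤ (d * (1 / γ ^ 2 + 1) / (η ^ 2 / 16) + 1) * S.card := by
    refine le_trans ?_ hSc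
    rw [Fintype.card_piFinset]
    simp only [prod_const, card_univ, Fintype.card_fin, Nat.cast_pow]
    exact pow_le_pow_left₀ (by nlinarith [sq_nonneg (p : ℝ)]) (card_block p hp2 hγ hγ1 hp) d
  obtain ⟨θ, hθ⟩ := exists_avoid (G := Fin d → ZMod p × ZMod p) (Icc 1 N)
    (fun h θ => ((4 * h : ℕ) : ZMod p) • θ)
    (fun h hh => smul_right_injective _ (by
      rw [Ne, ZMod.natCast_eq_zero_iff]
      have := mem_Icc.mp hh
      exact Nat.not_dvd_of_pos_of_lt (by omega) (by omega)))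
    (Fintype.piFinset fun _ : Fin d => (univ.filter fun s : ZMod p => Near η s) ×ˢ
      (univ.filter fun s : ZMod p => Near η s)) (by
      rw [hG, Fintype.card_piFinset]
      simp only [prod_const, card_univ, Fintype.card_fin, card_product, Nat.card_Icc,
        Nat.add_sub_cancel]
      have h1 := card_near p hη.le
      have h2 : ((N * ((univ.filter fun s : ZMod p => Near η s).card *
          (univ.filter fun s : ZMod p => Near η s).card) ^ d : ℕ) : ℝ) < (p ^ (2 * d) : ℕ) := by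
        push_cast
        refine lt_of_le_of_lt ?_ hbad
        rw [pow_mul, sq]
        gcongr
      exact_mod_cast h2)
  obtain ⟨μ, hμ⟩ := exists_shift (Icc 1 N) (fun n => (n : ZMod p) • θ) S
  refine ⟨_, filter_subset (fun n : ℕ => μ + (n : ZMod p) • θ ∈ S) _, ?_, ?_⟩
  · rintro a h h0 ⟨ha, hb, hc⟩
    obtain ⟨ha1, ha2⟩ := mem_filter.mp ha
    obtain ⟨hb1, hb2⟩ := mem_filter.mp hb
    obtain ⟨hc1, hc2⟩ := mem_filter.mp hc
    have hh : h ∈ Icc 1 N := by
      have := mem_Icc.mp hc1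
      exact mem_Icc.mpr ⟨h0, by omega⟩
    set x := μ + (a : ZMod p) • θ with hx
    set y := μ + ((a + h : ℕ) : ZMod p) • θ with hy
    set z := μ + ((a + 2 * h : ℕ) : ZMod p) • θ with hz
    have hxyz : x + z = y + y := by
      rw [hx, hy, hz]
      push_cast
      module
    have hzx : (z - x) + (z - x) = ((4 * h : ℕ) : ZMod p) • θ := by
      rw [hx, hz]
      push_cast
      module
    have hb := fun i => block hγ (by linarith) (congrFun hxyz i)
      (mem_filter.mp (Fintype.mem_piFinset.mp (hST ha2) i)).2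
      (mem_filter.mp (Fintype.mem_piFinset.mp (hST hb2) i)).2
      (mem_filter.mp (Fintype.mem_piFinset.mp (hST hc2) i)).2
    have hsum : ∑ i, (ff γ (x i) + ff γ (z i) - 2 * ff γ (y i)) < η ^ 2 / 8 := by
      rw [sum_sub_distrib, sum_add_distrib, ← mul_sum]
      linarith [hS x ha2 y hb2, hS z hc2 y hb2]
    refine hθ h hh (Fintype.mem_piFinset.mpr fun i => ?_)
    have hi := (hb i).2 η hη hη1 (lt_of_le_of_lt (single_le_sum
      (f := fun i => ff γ (x i) + ff γ (z i) - 2 * ff γ (y i)) (fun j _ => (hb j).1) (mem_univ i))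
      hsum)
    rw [← hzx]
    exact mem_product.mpr ⟨mem_filter.mpr ⟨mem_univ _, hi.1⟩, mem_filter.mpr ⟨mem_univ _, hi.2⟩⟩
  · rw [hG, Nat.card_Icc, Nat.add_sub_cancel] at hμ
    have hμ' : (N : ℝ) * S.card ≤ (p : ℝ) ^ (2 * d) *
        ((Icc 1 N).filter fun n : ℕ => μ + (n : ZMod p) • θ ∈ S).card := by exact_mod_cast hμ
    have hpd : (0 : ℝ) < (p : ℝ) ^ (2 * d) := by positivity
    refine le_of_mul_le_mul_left ?_ hpd
    rw [mul_pow, ← pow_mul] at hT
    have hJ : 0 ≤ d * (1 / γ ^ 2 + 1) / (η ^ 2 / 16) + 1 := by positivity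
    calc (p : ℝ) ^ (2 * d) * (N * (71 / 240 - γ) ^ d)
        = N * ((71 / 240 - γ) ^ d * (p : ℝ) ^ (2 * d)) := by ring
      _ ≤ N * ((d * (1 / γ ^ 2 + 1) / (η ^ 2 / 16) + 1) * S.card) := by gcongr
      _ = (d * (1 / γ ^ 2 + 1) / (η ^ 2 / 16) + 1) * (N * S.card) := by ring
      _ ≤ (d * (1 / γ ^ 2 + 1) / (η ^ 2 / 16) + 1) * ((p : ℝ) ^ (2 * d) *
        ((Icc 1 N).filter fun n : ℕ => μ + (n : ZMod p) • θ ∈ S).card) := by gcongr
      _ = _ := by ring

theorem dim_step (N d : ℕ) (hN : 1 ≤ N) (hd : 1 ≤ d) {γ : ℝ} (hγ : 0 < γ) (hγ1 : γ ≤ 1 / 6) :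
    ∃ A ⊆ Icc 1 N, (∀ a h : ℕ, 0 < h → ¬ (a ∈ A ∧ a + h ∈ A ∧ a + 2 * h ∈ A)) ∧
      N * (71 / 240 - γ) ^ d ≤ 257 * d * (1 / γ ^ 2 + 1) * Real.exp (Real.log N / d) * A.card := by
  set η := Real.exp (-(Real.log N / (2 * d))) / 4 with hη
  have hd0 : (1 : ℝ) ≤ d := by exact_mod_cast hd
  have hN0 : (1 : ℝ) ≤ N := by exact_mod_cast hN
  have hL : 0 ≤ Real.log N := Real.log_nonneg hN0
  have hη0 : 0 < η := by positivity
  have hη1 : η ≤ 1 := by
    have : Real.exp (-(Real.log N / (2 * d))) ≤ 1 := by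
      rw [Real.exp_le_one_iff, neg_nonpos]
      positivity
    linarith
  obtain ⟨p, hp, hpp⟩ := Nat.exists_infinite_primes (4 * N + 3 + ⌈34 / γ⌉₊ + ⌈1 / η⌉₊)
  have : Fact p.Prime := ⟨hpp⟩
  have hp0 : (0 : ℝ) < p := by exact_mod_cast hpp.pos
  have h1 : 34 / γ ≤ p := (Nat.le_ceil _).trans (by exact_mod_cast (by omega))
  have h2 : 1 / η ≤ p := (Nat.le_ceil _).trans (by exact_mod_cast (by omega))
  rw [div_le_iff₀ hγ] at h1
  rw [div_le_iff₀ hη0] at h2
  obtain ⟨A, hA, hAP, hc⟩ := finite_step N d p (by omega) (by omega) hγ hγ1 (by linarith) hη0 hη1 (by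
    have e1 : (N : ℝ) * Real.exp (-(Real.log N / (2 * d))) ^ (2 * d) = 1 := by
      rw [← Real.exp_nat_mul, show ((2 * d : ℕ) : ℝ) * -(Real.log N / (2 * d)) = -Real.log N by
        push_cast
        field_simp, Real.exp_neg, Real.exp_log (by linarith)]
      field_simp
    calc (N : ℝ) * (2 * η * p + 1) ^ (2 * d) ≤ N * (3 * η * p) ^ (2 * d) := by
          gcongr
          linarith
      _ = (3 / 4 * p) ^ (2 * d) * (N * Real.exp (-(Real.log N / (2 * d))) ^ (2 * d)) := by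
          rw [show 3 * η * p = 3 / 4 * p * Real.exp (-(Real.log N / (2 * d))) by rw [hη]; ring,
            mul_pow]
          ring
      _ < (p : ℝ) ^ (2 * d) := by
          rw [e1, mul_one]
          exact pow_lt_pow_left₀ (by linarith) (by positivity) (by omega))
  refine ⟨A, hA, hAP, hc.trans ?_⟩
  have e2 : η ^ 2 / 16 = (256 * Real.exp (Real.log N / d))⁻¹ := by
    rw [hη, div_pow, ← Real.exp_nat_mul, show ((2 : ℕ) : ℝ) * -(Real.log N / (2 * d)) =
      -(Real.log N / d) by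
        push_cast
        field_simp, Real.exp_neg]
    field_simp
    norm_num
  rw [e2, div_inv_eq_mul]
  have h3 : 1 ≤ Real.exp (Real.log N / d) := Real.one_le_exp (by positivity)
  have h4 : 1 ≤ 1 / γ ^ 2 + 1 := by
    have : 0 ≤ 1 / γ ^ 2 := by positivity
    linarith
  have h5 : 1 ≤ d * (1 / γ ^ 2 + 1) * Real.exp (Real.log N / d) :=
    one_le_mul_of_one_le_of_one_le (one_le_mul_of_one_le_of_one_le hd0 h4) h3
  gcongr
  linarith

theorem asym_step {γ ε : ℝ} (hγ : 0 < γ) (hγ1 : γ ≤ 1 / 6) (hε : 0 < ε) :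
    ∀ᶠ N : ℕ in Filter.atTop, ∃ A ⊆ Icc 1 N,
      (∀ a h : ℕ, 0 < h → ¬ (a ∈ A ∧ a + h ∈ A ∧ a + 2 * h ∈ A)) ∧
      N * Real.exp (-(2 * √(-Real.log (71 / 240 - γ)) + ε) * √(Real.log N)) ≤ A.card := by
  have hδ : 0 < 71 / 240 - γ := by linarith
  have hκ : 0 < -Real.log (71 / 240 - γ) := neg_pos.mpr (Real.log_neg hδ (by linarith))
  set κ := -Real.log (71 / 240 - γ) with hκd
  set s := √κ with hs
  have hs0 : 0 < s := Real.sqrt_pos.mpr hκ
  have hss : s * s = κ := Real.mul_self_sqrt hκ.le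
  set C := 257 * (1 / γ ^ 2 + 1) * Real.exp κ * (1 / s + 1) with hC
  have hC0 : 0 < C := by positivity
  have ht : Filter.Tendsto (fun N : ℕ => √(Real.log N)) Filter.atTop Filter.atTop :=
    Real.tendsto_sqrt_atTop.comp (Real.tendsto_log_atTop.comp tendsto_natCast_atTop_atTop)
  filter_upwards [ht.eventually_ge_atTop 1, ht.eventually_ge_atTop (2 * C / ε ^ 2),
    Filter.eventually_ge_atTop 1] with N h1 h2 hN
  have hN0 : (1 : ℝ) ≤ N := by exact_mod_cast hN
  have hL : 0 ≤ Real.log N := Real.log_nonneg hN0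
  set t := √(Real.log N) with htd
  have htt : t * t = Real.log N := Real.mul_self_sqrt hL
  have hts : 0 < t / s := by positivity
  set d := ⌈t / s⌉₊ with hd
  have hd1 : 1 ≤ d := Nat.one_le_iff_ne_zero.mpr (Nat.ceil_pos.mpr hts).ne'
  have hd2 : t / s ≤ d := Nat.le_ceil _
  have hd3 : (d : ℝ) < t / s + 1 := Nat.ceil_lt_add_one hts.le
  have hd0 : (0 : ℝ) < d := by exact_mod_cast hd1
  obtain ⟨A, hA, hAP, hc⟩ := dim_step N d hN hd1 hγ hγ1
  refine ⟨A, hA, hAP, ?_⟩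
  have e1 : (71 / 240 - γ) ^ d = Real.exp (-(κ * d)) := by
    rw [hκd, neg_mul, neg_neg, mul_comm, Real.exp_nat_mul, Real.exp_log hδ]
  have a1 : Real.log N / d ≤ s * t := by
    rw [div_le_iff₀ hd0, ← htt]
    rw [div_le_iff₀ hs0] at hd2
    nlinarith
  have a2 : κ * d ≤ s * t + κ := by
    have : κ * (t / s) = s * t := by
      rw [← hss]
      field_simp
    nlinarith
  have a3 : 257 * d * (1 / γ ^ 2 + 1) * Real.exp κ ≤ Real.exp (ε * t) := by
    have b1 : (d : ℝ) ≤ (1 / s + 1) * t := by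
      have : t / s = 1 / s * t := by ring
      nlinarith
    have b2 := Real.quadratic_le_exp_of_nonneg (show 0 ≤ ε * t by positivity)
    rw [div_le_iff₀ (by positivity)] at h2
    calc 257 * d * (1 / γ ^ 2 + 1) * Real.exp κ
        ≤ 257 * ((1 / s + 1) * t) * (1 / γ ^ 2 + 1) * Real.exp κ := by gcongr
      _ = C * t := by rw [hC]; ring
      _ ≤ (ε * t) ^ 2 / 2 := by nlinarith
      _ ≤ _ := by nlinarith [mul_pos hε (show 0 < t by linarith)]
  have hK : 0 < 257 * d * (1 / γ ^ 2 + 1) * Real.exp (Real.log N / d) := by positivity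
  refine le_of_mul_le_mul_left (le_trans ?_ hc) hK
  rw [e1]
  have a4 : 257 * d * (1 / γ ^ 2 + 1) * Real.exp (Real.log N / d) *
      Real.exp (-(2 * s + ε) * t) ≤ Real.exp (-(κ * d)) := by
    calc 257 * d * (1 / γ ^ 2 + 1) * Real.exp (Real.log N / d) * Real.exp (-(2 * s + ε) * t)
        = 257 * d * (1 / γ ^ 2 + 1) * Real.exp κ *
          Real.exp (Real.log N / d + -(2 * s + ε) * t - κ) := by
          rw [Real.exp_sub, Real.exp_add]
          field_simp
      _ ≤ Real.exp (ε * t) * Real.exp (Real.log N / d + -(2 * s + ε) * t - κ) := by gcongr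
      _ ≤ _ := by
          rw [← Real.exp_add, Real.exp_le_exp]
          linarith
  calc _ = N * (257 * d * (1 / γ ^ 2 + 1) * Real.exp (Real.log N / d) *
      Real.exp (-(2 * s + ε) * t)) := by ring
    _ ≤ _ := by gcongr

theorem main {ε : ℝ} (hε : 0 < ε) :
    ∀ᶠ N : ℕ in Filter.atTop, ∃ A ⊆ Icc 1 N,
      (∀ a h : ℕ, 0 < h → ¬ (a ∈ A ∧ a + h ∈ A ∧ a + 2 * h ∈ A)) ∧
      N * Real.exp (-(2 * √(Real.log (240 / 71)) + ε) * √(Real.log N)) ≤ A.card := by
  have hc : ContinuousAt (fun γ : ℝ => 2 * √(-Real.log (71 / 240 - γ))) 0 := by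
    refine ContinuousAt.mul continuousAt_const (ContinuousAt.sqrt (ContinuousAt.neg ?_))
    exact ContinuousAt.log (by fun_prop) (by norm_num)
  have e0 : -Real.log (71 / 240 - 0) = Real.log (240 / 71) := by
    rw [← Real.log_inv]
    norm_num
  have h1 : ∀ᶠ γ in nhds (0 : ℝ), 2 * √(-Real.log (71 / 240 - γ)) <
      2 * √(Real.log (240 / 71)) + ε / 2 :=
    hc.eventually_lt continuousAt_const (by simp only [e0]; linarith)
  have h2 : ∀ᶠ γ in nhds (0 : ℝ), γ < 1 / 6 := eventually_lt_nhds (by norm_num)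
  obtain ⟨γ, ⟨h3, h4⟩, h5⟩ := (((h1.and h2).filter_mono
    (nhdsWithin_le_nhds (s := Set.Ioi (0 : ℝ)))).and self_mem_nhdsWithin).exists
  filter_upwards [asym_step h5 h4.le (half_pos hε)] with N ⟨A, hA, hAP, hc⟩
  refine ⟨A, hA, hAP, le_trans ?_ hc⟩
  refine mul_le_mul_of_nonneg_left (Real.exp_le_exp.mpr ?_) (Nat.cast_nonneg _)
  exact mul_le_mul_of_nonneg_right (by linarith) (Real.sqrt_nonneg _)

end Vale.Agent.P057
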